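import Vale.Agent.P181.O2.H43.GbC

set_option autoImplicit false

/-!
# P181, O2, B2: the product model, lower bound
-/

open MvPolynomial

namespace Vale.Agent.P181.O2.H43

open Vale.Agent.P181.T4 (HW mem_HW)
open Vale.Agent.P181.SZ
open Vale.Agent.P181.O2

open scoped Classical in
/-- **(B2)**, no condition on the sizes. -/
theorem gainB_core (n a : ℕ) (mu : Fin (n + 1) → ℕ) (k : Multiset ℕ)
    (ht : ∑ i, tl mu i ≤ a) (ha : a ≤ mu 0) :
    ∑ U ∈ (US (mu 0 - a) (∑ i, tl mu i - 2)).filter (fun U => szs U = k), cc2 n (tl mu) U ≤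
      n2 (n + 1) a mu k := by
  classical
  have hk : (Finset.univ.val.map fun j : Fin k.toList.length => k.toList.get j) = k := by
    rw [Fin.univ_val_map]
    rw [List.ofFn_get, Multiset.coe_toList]
  rw [n2]
  generalize hd : (fun j : Fin k.toList.length => k.toList.get j) = d at hk ⊢
  generalize hSS : (US (mu 0 - a) (∑ i, tl mu i - 2)).filter (fun U => szs U = k) = S
  have hS0 : ∀ U ∈ S, (U.map Prod.fst).sum = mu 0 - a ∧ szs U = k := fun U hU => by
    rw [← hSS] at hU
    have h1 := Finset.mem_filter.1 hU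
    exact ⟨(Finset.mem_filter.1 h1.1).2.2.1, h1.2⟩
  have hS1 : ∀ U : S, (U.1.map Prod.fst).sum = mu 0 - a := fun U => (hS0 U.1 U.2).1
  have hS2 : ∀ U : S, ∃ l : Fin k.toList.length → ℕ × ℕ,
      (∀ j, (l j).1 + (l j).2 = d j) ∧ Finset.univ.val.map l = U.1 := fun U =>
    exists_labels d U.1 ((hS0 U.1 U.2).2.trans hk.symm)
  choose l hl hlU using hS2
  let V : S → Submodule ℂ (MvPolynomial (Fin n × Option (Fin k.toList.length)) ℂ) := fun U =>
    PL n (Option (Fin k.toList.length)) (lx (l U) ((U.1.map Prod.fst).sum + 1)) (tl mu)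
  let F : (∀ U : S, V U) →ₗ[ℂ]
      MvPolynomial (Fin (n + 1) × Option (Option (Fin k.toList.length))) ℂ :=
    ∑ U : S, (Ph n (a - ∑ i, tl mu i) d (fun j => (l U j).1)) ∘ₗ (V U).subtype ∘ₗ LinearMap.proj U
  have hF : ∀ f, F f = ∑ U : S, Ph n (a - ∑ i, tl mu i) d (fun j => (l U j).1) (f U).1 := by
    intro f
    rw [LinearMap.sum_apply]
    rfl
  have hmem : LinearMap.range F ≤ PG (n + 1) (Fin k.toList.length) d a mu := by
    rintro _ ⟨f, rfl⟩
    rw [hF]
    refine Submodule.sum_mem _ fun U _ => ?_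
    have h1 := mem_PL.1 (f U).2
    refine Ph_mem h1.1 (δ := fun c => (lx (l U) ((U.1.map Prod.fst).sum + 1) c).2) h1.2.1
      _ a d _ (by omega) ?_ (fun i => rfl) rfl (hl U)
    have h2 : ∑ j, (l U j).1 = mu 0 - a := by
      rw [← hS1 U, ← hlU U, Multiset.map_map]
      rfl
    rw [h2]
    omega
  have hinj : Function.Injective F := by
    rw [injective_iff_map_eq_zero]
    intro f hf
    funext U0
    rw [hF] at hf
    have h1 := congrArg (fun g => coeff (Finsupp.equivFunOnFinite.symm fun j => (l U0 j).1)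
      (kap n (Fin k.toList.length) g)) hf
    simp only [map_sum, coeff_sum, map_zero, coeff_zero] at h1
    rw [Finset.sum_eq_single U0] at h1
    · obtain ⟨N, hN, h2⟩ := (coeff_Ph (a - ∑ i, tl mu i) d (l U0) (l U0) (hl U0) (hl U0) _ (tl mu)
        (f U0).2).2 rfl
      rw [h2, nsmul_eq_mul, mul_eq_zero] at h1
      rcases h1 with h1 | h1
      · rw [Nat.cast_eq_zero] at h1
        omega
      · exact Subtype.ext h1
    · intro U _ hU
      refine (coeff_Ph (a - ∑ i, tl mu i) d (l U) (l U0) (hl U) (hl U0) _ (tl mu) (f U).2).1 ?_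
      rw [hlU, hlU]
      exact fun h => hU (Subtype.ext h)
    · intro h
      exact absurd (Finset.mem_univ _) h
  have hfV : ∀ U, Module.Finite ℂ (V U) := fun U =>
    haveI : FiniteDimensional ℂ (HW n (Option (Fin k.toList.length)) (tl mu)) :=
      T4.finiteDimensional_HW _ _ _
    Submodule.finiteDimensional_of_le (S₂ := HW n (Option (Fin k.toList.length)) (tl mu))
      fun f hf => (mem_PL.1 hf).1
  have hfG : Module.Finite ℂ (PG (n + 1) (Fin k.toList.length) d a mu) :=
    haveI : FiniteDimensional ℂ (HW (n + 1) (Option (Option (Fin k.toList.length))) mu) :=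
      T4.finiteDimensional_HW _ _ _
    Submodule.finiteDimensional_of_le
      (S₂ := HW (n + 1) (Option (Option (Fin k.toList.length))) mu) fun f hf => (mem_PG.1 hf).1
  calc ∑ U ∈ S, cc2 n (tl mu) U = ∑ U : S, cc2 n (tl mu) U.1 :=
        (Finset.sum_coe_sort S fun U => cc2 n (tl mu) U).symm
    _ = ∑ U : S, Module.finrank ℂ (V U) :=
        Finset.sum_congr rfl fun U _ => cc2_eq (tl mu) U.1 (l U) (hlU U)
    _ = Module.finrank ℂ (∀ U : S, V U) := (Module.finrank_pi_fintype ℂ).symm
    _ = Module.finrank ℂ (LinearMap.range F) := (LinearMap.finrank_range_of_inj hinj).symm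
    _ ≤ Module.finrank ℂ (PG (n + 1) (Fin k.toList.length) d a mu) := Submodule.finrank_mono hmem

/-- **(B2')** -/
theorem prodLow : ProdLow := fun n a mu k _ ht ha _ => gainB_core n a mu k ht ha

end Vale.Agent.P181.O2.H43
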