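import Vale.Agent.P181.O2.H43.T
import Vale.Agent.P181.SZR2a.RowOp

set_option autoImplicit false

/-!
# P181, O2, B2, part one: the two by two minors with the column `z`
-/

open MvPolynomial

namespace Vale.Agent.P181.O2.H43

open Vale.Agent.P181.T4 (HW rowOp rowOp_apply rowOp_leibniz rowOp_C rowOp_var mem_HW)
open Vale.Agent.P181.SZR2a (rowOp_aeval rowOp_aeval_zero)
open Vale.Agent.P181.SZ
open Vale.Agent.P181.SZT0 (rc inj_pr rc_inj coeff_rc sum_row rc_mem_HW)
open Vale.Agent.P181.O2

variable {n : ℕ} {σ : Type}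

/-- The two by two minor of the rows `0`, `u + 1` and the columns `z`, `c`. -/
noncomputable def zz (p : Fin n × Option σ) :
    MvPolynomial (Fin (n + 1) × Option (Option σ)) ℂ :=
  X (0, none) * X (p.1.succ, some p.2) - X (p.1.succ, none) * X (0, some p.2)

/-- The substitution by the minors. -/
noncomputable def psi :
    MvPolynomial (Fin n × Option σ) ℂ →ₐ[ℂ] MvPolynomial (Fin (n + 1) × Option (Option σ)) ℂ :=
  aeval zz

/-- The monomial in row zero. -/
noncomputable def pf [Fintype σ] (n b : ℕ) (w : σ → ℕ) :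
    MvPolynomial (Fin (n + 1) × Option (Option σ)) ℂ :=
  X (0, none) ^ b * ∏ j, X (0, some (some j)) ^ w j

/-- The lift of a polynomial in the tail rows. -/
noncomputable def TT [Fintype σ] (b : ℕ) (w : σ → ℕ) (P : MvPolynomial (Fin n × Option σ) ℂ) :
    MvPolynomial (Fin (n + 1) × Option (Option σ)) ℂ := pf n b w * psi P

/-! ### Degrees -/

lemma weight_eq {κ : Type} [Fintype κ] (W : κ → ℕ) (v : κ →₀ ℕ) :
    Finsupp.weight W v = ∑ p, v p * W p := by
  rw [Finsupp.weight_apply, Finsupp.sum_fintype v (fun i c => c • W i) (fun i => zero_smul _ _)]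
  simp only [smul_eq_mul]

lemma psi_homog [Fintype σ] (W : Fin (n + 1) × Option (Option σ) → ℕ) (V : Fin n × Option σ → ℕ)
    (h1 : ∀ p : Fin n × Option σ, W (0, none) + W (p.1.succ, some p.2) = V p)
    (h2 : ∀ p : Fin n × Option σ, W (p.1.succ, none) + W (0, some p.2) = V p)
    {P : MvPolynomial (Fin n × Option σ) ℂ} {D : ℕ}
    (hP : ∀ v, coeff v P ≠ 0 → ∑ p, v p * V p = D) : IsWeightedHomogeneous W (psi P) D := by
  rw [psi, aeval_def, eval₂_eq']
  refine IsWeightedHomogeneous.sum _ _ _ fun v hv => ?_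
  have e1 : IsWeightedHomogeneous W (algebraMap ℂ (MvPolynomial (Fin (n + 1) × Option (Option σ)) ℂ)
      (coeff v P)) 0 := isWeightedHomogeneous_C W _
  have e2 : IsWeightedHomogeneous W (∏ p : Fin n × Option σ, zz p ^ v p) (∑ p, v p • V p) := by
    refine IsWeightedHomogeneous.prod _ _ _ fun p _ => IsWeightedHomogeneous.pow ?_ _
    have a1 : IsWeightedHomogeneous W (X (0, none) * X (p.1.succ, some p.2) :
        MvPolynomial (Fin (n + 1) × Option (Option σ)) ℂ) (V p) := by
      rw [← h1 p]
      exact (isWeightedHomogeneous_X ℂ W _).mul (isWeightedHomogeneous_X ℂ W _)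
    have a2 : IsWeightedHomogeneous W (X (p.1.succ, none) * X (0, some p.2) :
        MvPolynomial (Fin (n + 1) × Option (Option σ)) ℂ) (V p) := by
      rw [← h2 p]
      exact (isWeightedHomogeneous_X ℂ W _).mul (isWeightedHomogeneous_X ℂ W _)
    exact Submodule.sub_mem (weightedHomogeneousSubmodule ℂ W (V p)) a1 a2
  have e3 := e1.mul e2
  rw [zero_add] at e3
  have e4 := hP v (mem_support_iff.1 hv)
  simp only [smul_eq_mul] at e3
  rw [e4] at e3
  exact e3

lemma TT_homog [Fintype σ] (W : Fin (n + 1) × Option (Option σ) → ℕ) (V : Fin n × Option σ → ℕ)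
    (h1 : ∀ p : Fin n × Option σ, W (0, none) + W (p.1.succ, some p.2) = V p)
    (h2 : ∀ p : Fin n × Option σ, W (p.1.succ, none) + W (0, some p.2) = V p)
    {P : MvPolynomial (Fin n × Option σ) ℂ} {D : ℕ}
    (hP : ∀ v, coeff v P ≠ 0 → ∑ p, v p * V p = D) (b : ℕ) (w : σ → ℕ)
    (v : Fin (n + 1) × Option (Option σ) →₀ ℕ) (hv : coeff v (TT b w P) ≠ 0) :
    ∑ p, v p * W p = b * W (0, none) + ∑ j, w j * W (0, some (some j)) + D := by
  have e1 : IsWeightedHomogeneous W (TT b w P)
      (b • W (0, none) + ∑ j, w j • W (0, some (some j)) + D) := by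
    refine IsWeightedHomogeneous.mul (IsWeightedHomogeneous.mul ?_ ?_) (psi_homog W V h1 h2 hP)
    · exact (isWeightedHomogeneous_X ℂ W _).pow _
    · exact IsWeightedHomogeneous.prod _ _ _ fun j _ => (isWeightedHomogeneous_X ℂ W _).pow _
  have e2 := e1 hv
  rw [weight_eq] at e2
  simpa only [smul_eq_mul] using e2

/-! ### The operators -/

lemma zv_add {m : ℕ} (f g : MvPolynomial (Fin m × Option (Option σ)) ℂ) :
    zv (f + g) = zv f + zv g := by
  unfold zv
  rw [← Finset.sum_add_distrib]
  exact Finset.sum_congr rfl fun i _ => by rw [map_add, mul_add]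

lemma zv_C {m : ℕ} (c : ℂ) : zv (C c : MvPolynomial (Fin m × Option (Option σ)) ℂ) = 0 := by
  unfold zv
  exact Finset.sum_eq_zero fun i _ => by rw [pderiv_C, mul_zero]

lemma zv_mul {m : ℕ} (f g : MvPolynomial (Fin m × Option (Option σ)) ℂ) :
    zv (f * g) = zv f * g + f * zv g := by
  unfold zv
  rw [Finset.sum_mul, Finset.mul_sum, ← Finset.sum_add_distrib]
  refine Finset.sum_congr rfl fun i _ => ?_
  rw [Derivation.leibniz, smul_eq_mul, smul_eq_mul]
  ring

open scoped Classical in
lemma zv_X {m : ℕ} (i : Fin m) (c : Option (Option σ)) :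
    zv (X (i, c) : MvPolynomial (Fin m × Option (Option σ)) ℂ) =
      if c = some none then X (i, none) else 0 := by
  classical
  unfold zv
  simp only [pderiv_X, Pi.single_apply]
  by_cases h : c = some none
  · rw [if_pos h, Finset.sum_eq_single i]
    · rw [if_pos (by rw [h]), mul_one]
    · intro j _ hj
      rw [if_neg (fun h' => hj (congrArg Prod.fst h').symm), mul_zero]
    · intro h'
      exact absurd (Finset.mem_univ _) h'
  · rw [if_neg h]
    refine Finset.sum_eq_zero fun j _ => ?_
    rw [if_neg (fun h' => h (congrArg Prod.snd h')), mul_zero]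

lemma zv_psi [Fintype σ] (P : MvPolynomial (Fin n × Option σ) ℂ) : zv (psi P) = 0 := by
  unfold psi
  induction P using MvPolynomial.induction_on with
  | C c =>
    rw [aeval_C]
    exact zv_C _
  | add f g hf hg => rw [map_add, zv_add, hf, hg, add_zero]
  | mul_X f p hf =>
    rw [map_mul, aeval_X, zv_mul, hf, zero_mul, zero_add]
    have h1 : zv (zz p) = 0 := by
      have h2 : zz p = X (0, none) * X (p.1.succ, some p.2) +
          C (-1) * (X (p.1.succ, none) * X (0, some p.2)) := by
        rw [zz, map_neg, C_1]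
        ring
      have k1 : ∀ i : Fin (n + 1), zv (X (i, none) :
          MvPolynomial (Fin (n + 1) × Option (Option σ)) ℂ) = 0 := fun i => by
        rw [zv_X, if_neg (by simp)]
      rw [h2, zv_add, zv_mul, zv_mul, zv_mul, zv_C, k1, k1]
      by_cases h : p.2 = none
      · have k2 : ∀ i : Fin (n + 1), zv (X (i, some p.2) :
            MvPolynomial (Fin (n + 1) × Option (Option σ)) ℂ) = X (i, none) := fun i => by
          rw [zv_X, if_pos (by rw [h])]
        rw [k2, k2, map_neg, C_1]
        ring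
      · have k2 : ∀ i : Fin (n + 1), zv (X (i, some p.2) :
            MvPolynomial (Fin (n + 1) × Option (Option σ)) ℂ) = 0 := fun i => by
          rw [zv_X, if_neg (fun h' => h (Option.some.inj h'))]
        rw [k2, k2]
        ring
    rw [h1, mul_zero]

lemma zv_pf [Fintype σ] (b : ℕ) (w : σ → ℕ) : zv (pf n b w) = 0 := by
  classical
  have hpow : ∀ (c : Option (Option σ)) (k : ℕ), c ≠ some none →
      zv (X (0, c) ^ k : MvPolynomial (Fin (n + 1) × Option (Option σ)) ℂ) = 0 := by
    intro c k hc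
    induction k with
    | zero =>
      rw [pow_zero, ← C_1]
      exact zv_C _
    | succ k ih => rw [pow_succ, zv_mul, ih, zv_X, if_neg hc, zero_mul, mul_zero, add_zero]
  have hprod : ∀ s : Finset σ,
      zv (∏ j ∈ s, X (0, some (some j)) ^ w j :
        MvPolynomial (Fin (n + 1) × Option (Option σ)) ℂ) = 0 := by
    intro s
    induction s using Finset.induction_on with
    | empty =>
      rw [Finset.prod_empty, ← C_1]
      exact zv_C _
    | insert c t hc ih =>
      rw [Finset.prod_insert hc, zv_mul, ih, hpow _ _ (by simp), zero_mul, mul_zero, add_zero]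
  rw [pf, zv_mul, hprod, hpow _ _ (by simp), zero_mul, mul_zero, add_zero]

lemma zv_TT [Fintype σ] (b : ℕ) (w : σ → ℕ) (P : MvPolynomial (Fin n × Option σ) ℂ) :
    zv (TT b w P) = 0 := by
  rw [TT, zv_mul, zv_pf, zv_psi, zero_mul, mul_zero, add_zero]

lemma rowOp_zero' {m : ℕ} {κ : Type} [Fintype κ] (s : Fin (m + 1)) (i : Fin m) (c : κ) :
    rowOp s i.succ (X (0, c) : MvPolynomial (Fin (m + 1) × κ) ℂ) = 0 := by
  rw [rowOp_var, if_neg (Fin.succ_ne_zero i).symm]

lemma rowOp_pf [Fintype σ] (b : ℕ) (w : σ → ℕ) (s : Fin (n + 1)) (i : Fin n) :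
    rowOp s i.succ (pf n b w) = 0 := by
  classical
  have hpow : ∀ (c : Option (Option σ)) (k : ℕ),
      rowOp s i.succ (X (0, c) ^ k : MvPolynomial (Fin (n + 1) × Option (Option σ)) ℂ) = 0 := by
    intro c k
    induction k with
    | zero =>
      rw [pow_zero, ← C_1]
      exact rowOp_C _ _ _
    | succ k ih => rw [pow_succ, rowOp_leibniz, ih, rowOp_zero', zero_mul, mul_zero, add_zero]
  have hprod : ∀ t : Finset σ,
      rowOp s i.succ (∏ j ∈ t, X (0, some (some j)) ^ w j :
        MvPolynomial (Fin (n + 1) × Option (Option σ)) ℂ) = 0 := by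
    intro t
    induction t using Finset.induction_on with
    | empty =>
      rw [Finset.prod_empty, ← C_1]
      exact rowOp_C _ _ _
    | insert c t hc ih =>
      rw [Finset.prod_insert hc, rowOp_leibniz, ih, hpow, zero_mul, mul_zero, add_zero]
  rw [pf, rowOp_leibniz, hprod, hpow, zero_mul, mul_zero, add_zero]

lemma rowOp_zz [Fintype σ] (s : Fin (n + 1)) (i : Fin n) (p : Fin n × Option σ) :
    rowOp s i.succ (zz p) = if p.1 = i then
      X (0, none) * X (s, some p.2) - X (s, none) * X (0, some p.2) else 0 := by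
  rw [zz, map_sub, rowOp_leibniz, rowOp_leibniz, rowOp_zero', rowOp_zero', rowOp_var, rowOp_var]
  simp only [Fin.succ_inj]
  by_cases h : p.1 = i
  · simp only [if_pos h]
    ring
  · simp only [if_neg h]
    ring

lemma rowOp_TT [Fintype σ] (b : ℕ) (w : σ → ℕ) {P : MvPolynomial (Fin n × Option σ) ℂ}
    {tau : Fin n → ℕ} (hP : P ∈ HW n (Option σ) tau) (s i : Fin (n + 1)) (hsi : s < i) :
    rowOp s i (TT b w P) = 0 := by
  obtain ⟨i, rfl⟩ := Fin.exists_succ_eq.2 (Fin.pos_iff_ne_zero.1 ((Fin.zero_le s).trans_lt hsi))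
  rw [TT, rowOp_leibniz, rowOp_pf, zero_mul, zero_add]
  revert hsi
  refine Fin.cases ?_ (fun s => ?_) s
  · intro _
    rw [psi, rowOp_aeval_zero, mul_zero]
    intro p
    rw [rowOp_zz]
    by_cases h : p.1 = i
    · rw [if_pos h]
      ring
    · rw [if_neg h]
  · intro hsi
    rw [psi, rowOp_aeval (s := s) (i := i), hP.2 s i (Fin.succ_lt_succ_iff.1 hsi), map_zero,
      mul_zero]
    intro p
    rw [rowOp_zz, rowOp_var]
    by_cases h : p.1 = i
    · rw [if_pos h, if_pos h, aeval_X, zz]
    · rw [if_neg h, if_neg h, map_zero]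

end Vale.Agent.P181.O2.H43
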