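import Vale.Agent.P181.O2.H43.GbA

set_option autoImplicit false

/-!
# P181, O2, B2, part two: the symmetrised lift
-/

open MvPolynomial

namespace Vale.Agent.P181.O2.H43

open Vale.Agent.P181.T4 (HW rowOp rowOp_apply rowOp_leibniz rowOp_C rowOp_var mem_HW)
open Vale.Agent.P181.SZ
open Vale.Agent.P181.SZT0 (rc inj_pr rc_inj coeff_rc sum_row rc_mem_HW)
open Vale.Agent.P181.O2

variable {n : ℕ} {σ : Type}

open scoped Classical in
lemma sum_rowW {m : ℕ} {κ : Type} [Fintype κ] (v : Fin m × κ → ℕ) (i : Fin m) :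
    ∑ p, v p * (if p.1 = i then 1 else 0) = ∑ j, v (i, j) := by
  rw [Fintype.sum_prod_type, Finset.sum_eq_single i]
  · exact Finset.sum_congr rfl fun j _ => by rw [if_pos rfl, mul_one]
  · intro j _ hj
    exact Finset.sum_eq_zero fun k _ => by rw [if_neg hj, mul_zero]
  · intro h
    exact absurd (Finset.mem_univ _) h

open scoped Classical in
/-- The indicator of a column. -/
noncomputable def cw {κ : Type} (c x : κ) : ℕ := if x = c then 1 else 0

lemma cw_self {κ : Type} (c : κ) : cw c c = 1 := if_pos rfl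

lemma cw_ne {κ : Type} {c x : κ} (h : x ≠ c) : cw c x = 0 := if_neg h

lemma cw_some {κ : Type} (c x : κ) : cw (some c) (some x) = cw c x := by
  by_cases h : x = c
  · rw [h, cw_self, cw_self]
  · rw [cw_ne h, cw_ne (fun h' => h (Option.some.inj h'))]

lemma cw_none_some {κ : Type} (x : κ) : cw none (some x) = 0 := cw_ne (Option.some_ne_none x)

lemma cw_some_none {κ : Type} (c : κ) : cw (some c) none = 0 := cw_ne (Option.some_ne_none c).symm

lemma sum_colW {m : ℕ} {κ : Type} [Fintype κ] (v : Fin m × κ → ℕ) (c : κ) :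
    ∑ p, v p * cw c p.2 = ∑ i, v (i, c) := by
  rw [Fintype.sum_prod_type]
  refine Finset.sum_congr rfl fun i _ => ?_
  rw [Finset.sum_eq_single c]
  · rw [cw_self, mul_one]
  · intro j _ hj
    rw [cw_ne hj, mul_zero]
  · intro h
    exact absurd (Finset.mem_univ _) h

lemma TT_mem [Fintype σ] {tau : Fin n → ℕ} {P : MvPolynomial (Fin n × Option σ) ℂ}
    (hP : P ∈ HW n (Option σ) tau) (b : ℕ) (w : σ → ℕ) {mu : Fin (n + 1) → ℕ}
    (h0 : mu 0 = b + ∑ j, w j + ∑ i, tau i) (hs : ∀ i : Fin n, mu i.succ = tau i) :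
    TT b w P ∈ HW (n + 1) (Option (Option σ)) mu := by
  classical
  refine mem_HW.2 ⟨fun v hv i => ?_, rowOp_TT b w hP⟩
  refine Fin.cases ?_ (fun i => ?_) i
  · have h := TT_homog (fun p => if p.1 = 0 then 1 else 0) (fun _ => 1)
      (fun p => by simp [Fin.succ_ne_zero]) (fun p => by simp [Fin.succ_ne_zero])
      (P := P) (D := ∑ i, tau i) (fun u hu => by
        simp only [mul_one]
        rw [Fintype.sum_prod_type]
        exact Finset.sum_congr rfl fun i _ => hP.1 u hu i) b w v hv
    rw [sum_rowW] at h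
    rw [h, h0]
    simp
  · have h := TT_homog (fun p => if p.1 = i.succ then 1 else 0) (fun p => if p.1 = i then 1 else 0)
      (fun p => by simp [(Fin.succ_ne_zero i).symm])
      (fun p => by simp [(Fin.succ_ne_zero i).symm])
      (P := P) (D := tau i) (fun u hu => by
        rw [sum_rowW]
        exact hP.1 u hu i) b w v hv
    rw [sum_rowW] at h
    rw [h, hs]
    simp [(Fin.succ_ne_zero i).symm]

lemma TT_col [Fintype σ] {tau : Fin n → ℕ} {P : MvPolynomial (Fin n × Option σ) ℂ}
    (hP : P ∈ HW n (Option σ) tau) {δ : Option σ → ℕ}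
    (hc : ∀ v, coeff v P ≠ 0 → ∀ c, ∑ i, v (i, c) = δ c) (b : ℕ) (w : σ → ℕ)
    (v : Fin (n + 1) × Option (Option σ) →₀ ℕ) (hv : coeff v (TT b w P) ≠ 0) :
    ∑ i, v (i, none) = b + ∑ i, tau i ∧ ∑ i, v (i, some none) = δ none ∧
      ∀ j, ∑ i, v (i, some (some j)) = w j + δ (some j) := by
  refine ⟨?_, ?_, fun j => ?_⟩
  · have h := TT_homog (fun p => cw none p.2) (fun _ => 1)
      (fun p => by simp [cw_self, cw_none_some]) (fun p => by simp [cw_self, cw_none_some])
      (P := P) (D := ∑ i, tau i) (fun u hu => by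
        simp only [mul_one]
        rw [Fintype.sum_prod_type]
        exact Finset.sum_congr rfl fun i _ => hP.1 u hu i) b w v hv
    rw [sum_colW] at h
    rw [h]
    simp [cw_self, cw_none_some]
  · have h := TT_homog (fun p => cw (some none) p.2) (fun p => cw none p.2)
      (fun p => by simp [cw_some, cw_some_none]) (fun p => by simp [cw_some, cw_some_none])
      (P := P) (D := δ none) (fun u hu => by
        rw [sum_colW]
        exact hc u hu _) b w v hv
    rw [sum_colW] at h
    rw [h]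
    simp [cw_some, cw_some_none, cw_none_some]
  · have h := TT_homog (fun p => cw (some (some j)) p.2) (fun p => cw (some j) p.2)
      (fun p => by simp [cw_some, cw_some_none]) (fun p => by simp [cw_some, cw_some_none])
      (P := P) (D := δ (some j)) (fun u hu => by
        rw [sum_colW]
        exact hc u hu _) b w v hv
    rw [sum_colW] at h
    rw [h]
    simp only [cw_some, cw_some_none, mul_zero, zero_add]
    rw [Finset.sum_eq_single j]
    · rw [cw_self, mul_one]
    · intro i _ hi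
      rw [cw_ne hi, mul_zero]
    · intro h
      exact absurd (Finset.mem_univ _) h

/-! ### Permutations of the columns -/

/-- The permutation of the columns of the target. -/
noncomputable def re (n : ℕ) (e : Equiv.Perm σ) :
    MvPolynomial (Fin n × Option (Option σ)) ℂ →ₐ[ℂ] MvPolynomial (Fin n × Option (Option σ)) ℂ :=
  rename (fun p : Fin n × Option (Option σ) => (p.1, p.2.map (Option.map e)))

/-- The permutation of the columns of the source. -/
noncomputable def rs (n : ℕ) (e : Equiv.Perm σ) :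
    MvPolynomial (Fin n × Option σ) ℂ →ₐ[ℂ] MvPolynomial (Fin n × Option σ) ℂ :=
  rc n (Option.map e)

lemma re_mul (e e' : Equiv.Perm σ) (f : MvPolynomial (Fin n × Option (Option σ)) ℂ) :
    re n e (re n e' f) = re n (e * e') f := by
  rw [re, re, re, rename_rename]
  congr 2
  funext p
  obtain ⟨i, c⟩ := p
  rcases c with _ | _ | c <;> rfl

lemma re_TT [Fintype σ] (e : Equiv.Perm σ) (b : ℕ) (w : σ → ℕ)
    (P : MvPolynomial (Fin n × Option σ) ℂ) :
    re (n + 1) e (TT b w P) = TT b (fun j => w (e.symm j)) (rs n e P) := by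
  rw [TT, map_mul, TT]
  congr 1
  · rw [pf, map_mul, map_pow, pf, re, rename_X, map_prod]
    congr 1
    simp only [map_pow, rename_X]
    refine Fintype.prod_equiv e _ _ fun j => ?_
    rw [Equiv.symm_apply_apply]
    rfl
  · have h : (re (n + 1) e).comp psi = psi.comp (rs n e) := by
      refine MvPolynomial.algHom_ext fun p => ?_
      rw [AlgHom.comp_apply, AlgHom.comp_apply, psi, aeval_X, rs, rc, rename_X, aeval_X, zz, zz,
        map_sub, map_mul, map_mul, re, rename_X, rename_X, rename_X, rename_X]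
      rfl
    exact congrArg (fun g : MvPolynomial (Fin n × Option σ) ℂ →ₐ[ℂ]
      MvPolynomial (Fin (n + 1) × Option (Option σ)) ℂ => g P) h

lemma rs_inj (e : Equiv.Perm σ) : Function.Injective (Option.map e) :=
  Option.map_injective e.injective

lemma rs_mem [Fintype σ] {tau : Fin n → ℕ} {P : MvPolynomial (Fin n × Option σ) ℂ}
    (hP : P ∈ HW n (Option σ) tau) (e : Equiv.Perm σ) : rs n e P ∈ HW n (Option σ) tau :=
  (rc_mem_HW (rs_inj e)).2 hP

lemma rs_col {P : MvPolynomial (Fin n × Option σ) ℂ} {δ : Option σ → ℕ}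
    (hc : ∀ v, coeff v P ≠ 0 → ∀ c, ∑ i, v (i, c) = δ c) (e : Equiv.Perm σ)
    (v : Fin n × Option σ →₀ ℕ) (hv : coeff v (rs n e P) ≠ 0) (c : Option σ) :
    ∑ i, v (i, c) = δ (c.map e.symm) := by
  obtain ⟨u, hu, h3, -⟩ := coeff_rc (rs_inj e) hv
  have h4 : c = Option.map e (c.map e.symm) := by
    rcases c with _ | c
    · rfl
    · simp
  rw [← hc u hu]
  refine Finset.sum_congr rfl fun i _ => ?_
  rw [← h3 i, ← h4]

/-! ### The symmetrised lift -/

open scoped Classical in
/-- The symmetrised lift. -/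
noncomputable def Ph [Fintype σ] (n b : ℕ) (d w : σ → ℕ) : MvPolynomial (Fin n × Option σ) ℂ →ₗ[ℂ]
    MvPolynomial (Fin (n + 1) × Option (Option σ)) ℂ :=
  ∑ e ∈ (Finset.univ : Finset (Equiv.Perm σ)).filter (fun e => ∀ j, d (e j) = d j),
    (re (n + 1) e).toLinearMap ∘ₗ (LinearMap.mulLeft ℂ (pf n b w)) ∘ₗ psi.toLinearMap

open scoped Classical in
lemma Ph_apply [Fintype σ] (b : ℕ) (d w : σ → ℕ) (P : MvPolynomial (Fin n × Option σ) ℂ) :
    Ph n b d w P = ∑ e ∈ (Finset.univ : Finset (Equiv.Perm σ)).filter (fun e => ∀ j, d (e j) = d j),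
      re (n + 1) e (TT b w P) := by
  rw [Ph, LinearMap.sum_apply]
  rfl

lemma mem_PG {m : ℕ} [Fintype σ] {d : σ → ℕ} {a : ℕ} {mu : Fin m → ℕ}
    {f : MvPolynomial (Fin m × Option (Option σ)) ℂ} :
    f ∈ PG m σ d a mu ↔ f ∈ HW m (Option (Option σ)) mu ∧
    (∀ v, coeff v f ≠ 0 → ∑ i, v (i, none) = a ∧ ∑ i, v (i, some none) = 2 ∧
      ∀ j, ∑ i, v (i, some (some j)) = d j) ∧
    (∀ e : Equiv.Perm σ, (∀ j, d (e j) = d j) →
      rename (fun p : Fin m × Option (Option σ) => (p.1, p.2.map (Option.map e))) f = f) ∧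
    zv f = 0 := Iff.rfl

lemma Ph_mem [Fintype σ] {tau : Fin n → ℕ} {P : MvPolynomial (Fin n × Option σ) ℂ}
    (hP : P ∈ HW n (Option σ) tau) {δ : Option σ → ℕ}
    (hc : ∀ v, coeff v P ≠ 0 → ∀ c, ∑ i, v (i, c) = δ c) (b a : ℕ) (d w : σ → ℕ)
    {mu : Fin (n + 1) → ℕ} (ha : b + ∑ i, tau i = a) (h0 : mu 0 = a + ∑ j, w j)
    (hs : ∀ i : Fin n, mu i.succ = tau i) (h2 : δ none = 2) (hd : ∀ j, w j + δ (some j) = d j) :
    Ph n b d w P ∈ PG (n + 1) σ d a mu := by
  classical
  refine mem_PG.2 ⟨?_, fun v hv => ?_, fun e he => ?_, ?_⟩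
  · rw [Ph_apply]
    refine Submodule.sum_mem _ fun e _ => ?_
    rw [re_TT]
    refine TT_mem (rs_mem hP e) b _ ?_ hs
    have h3 : ∑ j, w (e.symm j) = ∑ j, w j := Equiv.sum_comp e.symm w
    rw [h3, h0, ← ha]
    omega
  · rw [Ph_apply, coeff_sum] at hv
    obtain ⟨e, he, hv⟩ := Finset.exists_ne_zero_of_sum_ne_zero hv
    rw [re_TT] at hv
    obtain ⟨g1, g2, g3⟩ := TT_col (rs_mem hP e) (rs_col hc e) b _ v hv
    refine ⟨g1.trans ha, g2.trans h2, fun j => (g3 j).trans ?_⟩
    have h4 := hd (e.symm j)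
    have h5 := (Finset.mem_filter.1 he).2 (e.symm j)
    rw [Equiv.apply_symm_apply] at h5
    rw [h5]
    exact h4
  · rw [Ph_apply]
    change re (n + 1) e _ = _
    rw [map_sum]
    simp only [re_mul]
    refine Finset.sum_nbij' (fun x => e * x) (fun x => e⁻¹ * x) ?_ ?_ ?_ ?_ ?_
    · intro x hx
      refine Finset.mem_filter.2 ⟨Finset.mem_univ _, fun j => ?_⟩
      rw [Equiv.Perm.mul_apply, he, (Finset.mem_filter.1 hx).2]
    · intro x hx
      refine Finset.mem_filter.2 ⟨Finset.mem_univ _, fun j => ?_⟩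
      have h5 : e (e⁻¹ (x j)) = x j := e.apply_symm_apply (x j)
      rw [Equiv.Perm.mul_apply, ← he (e⁻¹ (x j)), h5, (Finset.mem_filter.1 hx).2]
    · intro x _
      exact inv_mul_cancel_left e x
    · intro x _
      exact mul_inv_cancel_left e x
    · intro x _
      rfl
  · rw [Ph_apply]
    have h3 : ∀ s : Finset (Equiv.Perm σ), zv (∑ e ∈ s, re (n + 1) e (TT b w P)) = 0 := by
      intro s
      induction s using Finset.induction_on with
      | empty =>
        have h4 := zv_C (σ := σ) (m := n + 1) 0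
        rw [C_0] at h4
        rw [Finset.sum_empty, h4]
      | insert c t hc ih => rw [Finset.sum_insert hc, zv_add, ih, re_TT, zv_TT, add_zero]
    exact h3 _

end Vale.Agent.P181.O2.H43
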