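import Vale.Agent.P181.O2.H43.GbB

set_option autoImplicit false

/-!
# P181, O2, B2, part three: evaluation at `z = e_0`, `v_0 = 0`
-/

open MvPolynomial

namespace Vale.Agent.P181.O2.H43

open Vale.Agent.P181.T4 (HW rowOp rowOp_apply rowOp_leibniz rowOp_C rowOp_var mem_HW)
open Vale.Agent.P181.SZ
open Vale.Agent.P181.SZT0 (rc inj_pr rc_inj coeff_rc sum_row rc_mem_HW)
open Vale.Agent.P181.O2

variable {n : ℕ} {σ : Type}

/-- The values of the evaluation. -/
noncomputable def gk (n : ℕ) (σ : Type) (p : Fin (n + 1) × Option (Option σ)) :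
    MvPolynomial σ (MvPolynomial (Fin n × Option σ) ℂ) :=
  Fin.cases (motive := fun _ => MvPolynomial σ (MvPolynomial (Fin n × Option σ) ℂ))
    (p.2.elim 1 fun c => c.elim 0 fun j => X j) (fun u => p.2.elim 0 fun c => C (X (u, c))) p.1

/-- The evaluation. -/
noncomputable def kap (n : ℕ) (σ : Type) : MvPolynomial (Fin (n + 1) × Option (Option σ)) ℂ →ₐ[ℂ]
    MvPolynomial σ (MvPolynomial (Fin n × Option σ) ℂ) := aeval (gk n σ)

lemma kap_psi (P : MvPolynomial (Fin n × Option σ) ℂ) : kap n σ (psi P) = C P := by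
  have h : (kap n σ).comp psi = IsScalarTower.toAlgHom ℂ (MvPolynomial (Fin n × Option σ) ℂ)
      (MvPolynomial σ (MvPolynomial (Fin n × Option σ) ℂ)) := by
    refine MvPolynomial.algHom_ext fun p => ?_
    rw [AlgHom.comp_apply, psi, aeval_X, zz, map_sub, map_mul, map_mul, kap, aeval_X, aeval_X,
      aeval_X, aeval_X]
    change (1 : MvPolynomial σ (MvPolynomial (Fin n × Option σ) ℂ)) * C (X p) - 0 * _ = C (X p)
    rw [one_mul, zero_mul, sub_zero]
  exact congrArg (fun g : MvPolynomial (Fin n × Option σ) ℂ →ₐ[ℂ]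
    MvPolynomial σ (MvPolynomial (Fin n × Option σ) ℂ) => g P) h

lemma kap_TT [Fintype σ] (b : ℕ) (w : σ → ℕ) (P : MvPolynomial (Fin n × Option σ) ℂ) :
    kap n σ (TT b w P) = monomial (Finsupp.equivFunOnFinite.symm w) P := by
  rw [TT, map_mul, kap_psi, pf, map_mul, map_pow, map_prod, monomial_eq, mul_comm]
  congr 1
  rw [Finsupp.prod_fintype _ _ (fun i => pow_zero _)]
  have h1 : kap n σ (X (0, none)) = 1 := by
    rw [kap, aeval_X]
    rfl
  rw [h1, one_pow, one_mul]
  refine Finset.prod_congr rfl fun j _ => ?_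
  rw [map_pow, kap, aeval_X]
  rfl

open scoped Classical in
lemma coeff_kap_Ph [Fintype σ] (b : ℕ) (d w : σ → ℕ) (P : MvPolynomial (Fin n × Option σ) ℂ)
    (w0 : σ → ℕ) : coeff (Finsupp.equivFunOnFinite.symm w0) (kap n σ (Ph n b d w P)) =
      ∑ e ∈ (Finset.univ : Finset (Equiv.Perm σ)).filter (fun e => ∀ j, d (e j) = d j),
        if (fun j => w (e.symm j)) = w0 then rs n e P else 0 := by
  rw [Ph_apply, map_sum, coeff_sum]
  refine Finset.sum_congr rfl fun e _ => ?_
  rw [re_TT, kap_TT, coeff_monomial]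
  by_cases h : (fun j => w (e.symm j)) = w0
  · rw [if_pos h, if_pos (by rw [h])]
  · rw [if_neg h, if_neg (fun h' => h (Finsupp.equivFunOnFinite.symm.injective h'))]

/-- The labels of a state. -/
lemma exists_labels [Fintype σ] (d : σ → ℕ) (U : Multiset (ℕ × ℕ))
    (h : (U.map fun p => p.1 + p.2) = Finset.univ.val.map d) :
    ∃ l : σ → ℕ × ℕ, (∀ j, (l j).1 + (l j).2 = d j) ∧ Finset.univ.val.map l = U := by
  have h4 : (Finset.univ.val.map fun j : Fin U.toList.length => U.toList.get j) = U := by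
    rw [Fin.univ_val_map]
    rw [List.ofFn_get, Multiset.coe_toList]
  have h5 : Finset.univ.val.map d =
      Finset.univ.val.map fun j : Fin U.toList.length =>
        (U.toList.get j).1 + (U.toList.get j).2 := by
    rw [← h]
    conv_lhs => rw [← h4]
    rw [Multiset.map_map]
    rfl
  obtain ⟨e, he⟩ := exists_equiv d _ h5
  refine ⟨fun j => U.toList.get (e j), he, ?_⟩
  have h6 : (Finset.univ.val.map fun j => U.toList.get (e j)) =
      ((Finset.univ.val.map e).map fun j => U.toList.get j) := by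
    rw [Multiset.map_map]
    rfl
  rw [h6, Multiset.map_univ_val_equiv, h4]

/-- The labels with the fresh letter. -/
def lx (l : σ → ℕ × ℕ) (x : ℕ) : Option σ → ℕ × ℕ := fun c => c.elim (x, 2) l

lemma cc2_eq [Fintype σ] (tau : Fin n → ℕ) (U : Multiset (ℕ × ℕ)) (l : σ → ℕ × ℕ)
    (hl : Finset.univ.val.map l = U) :
    cc2 n tau U = Module.finrank ℂ (PL n (Option σ) (lx l ((U.map Prod.fst).sum + 1)) tau) := by
  rw [transL, cc2, cc_filter]
  congr 2
  have h1 : (Finset.univ : Finset (Option σ)).val = none ::ₘ Finset.univ.val.map some := rfl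
  rw [h1, Multiset.map_cons, Multiset.map_map, ← hl]
  rfl

/-- The coefficients of the lift. -/
lemma coeff_Ph [Fintype σ] (b : ℕ) (d : σ → ℕ) (l l0 : σ → ℕ × ℕ)
    (hl : ∀ j, (l j).1 + (l j).2 = d j) (hl0 : ∀ j, (l0 j).1 + (l0 j).2 = d j) (x : ℕ)
    (tau : Fin n → ℕ) {P : MvPolynomial (Fin n × Option σ) ℂ}
    (hP : P ∈ PL n (Option σ) (lx l x) tau) :
    (Finset.univ.val.map l ≠ Finset.univ.val.map l0 →
      coeff (Finsupp.equivFunOnFinite.symm fun j => (l0 j).1)
        (kap n σ (Ph n b d (fun j => (l j).1) P)) = 0) ∧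
    (l = l0 → ∃ N : ℕ, 0 < N ∧ coeff (Finsupp.equivFunOnFinite.symm fun j => (l0 j).1)
        (kap n σ (Ph n b d (fun j => (l j).1) P)) = N • P) := by
  classical
  -- the permutations which preserve `d` and `w` preserve the labels
  have key : ∀ e : Equiv.Perm σ, (∀ j, d (e j) = d j) →
      (fun j => (l (e.symm j)).1) = (fun j => (l0 j).1) → ∀ j, l (e.symm j) = l0 j := by
    intro e he h j
    have h1 : (l (e.symm j)).1 = (l0 j).1 := congrFun h j
    have h2 := hl (e.symm j)
    have h3 := hl0 j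
    have h4 := he (e.symm j)
    rw [Equiv.apply_symm_apply] at h4
    exact Prod.ext h1 (by omega)
  refine ⟨fun hne => ?_, fun heq => ?_⟩
  · rw [coeff_kap_Ph]
    refine Finset.sum_eq_zero fun e he => ?_
    rw [if_neg]
    intro h
    apply hne
    have h1 : l0 = fun j => l (e.symm j) := (funext (key e (Finset.mem_filter.1 he).2 h)).symm
    have h2 : (Finset.univ.val.map fun j => l (e.symm j)) =
        (Finset.univ.val.map e.symm).map l := by
      rw [Multiset.map_map]
      rfl
    rw [h1, h2, Multiset.map_univ_val_equiv]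
  · refine ⟨(((Finset.univ : Finset (Equiv.Perm σ)).filter (fun e => ∀ j, d (e j) = d j)).filter
      (fun e => (fun j => (l (e.symm j)).1) = fun j => (l0 j).1)).card, ?_, ?_⟩
    · rw [Finset.card_pos]
      refine ⟨1, Finset.mem_filter.2 ⟨Finset.mem_filter.2 ⟨Finset.mem_univ _, fun j => rfl⟩, ?_⟩⟩
      rw [heq]
      rfl
    · rw [coeff_kap_Ph, ← Finset.sum_filter, ← Finset.sum_const]
      refine Finset.sum_congr rfl fun e he => ?_
      have h1 := key e (Finset.mem_filter.1 (Finset.mem_filter.1 he).1).2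
        (Finset.mem_filter.1 he).2
      have h2 := (mem_PL.1 hP).2.2 (Equiv.optionCongr e) ?_
      · exact h2
      · intro c
        rcases c with _ | c
        · rfl
        · change l (e c) = l c
          have h3 := h1 (e c)
          rw [Equiv.symm_apply_apply, ← heq] at h3
          exact h3.symm

end Vale.Agent.P181.O2.H43
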