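import Vale.Agent.P181.O2.Cnt
import Vale.Agent.P181.SZT0.Tr

set_option autoImplicit false

/-!
# P181, O2, T: transport of `PL` along a map of column sets
-/

open MvPolynomial

namespace Vale.Agent.P181.O2.H43

open Vale.Agent.P181.T4 (HW)
open Vale.Agent.P181.SZ
open Vale.Agent.P181.SZT0 (rc inj_pr rc_inj coeff_rc sum_row rc_mem_HW perm_restrict exists_rc)
open Vale.Agent.P181.O2

/-- Membership in `PL`. -/
lemma mem_PL {m : ℕ} {σ : Type} [Fintype σ] {l : σ → ℕ × ℕ} {mu : Fin m → ℕ}
    {f : MvPolynomial (Fin m × σ) ℂ} :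
    f ∈ PL m σ l mu ↔ f ∈ HW m σ mu ∧ (∀ v, coeff v f ≠ 0 → ∀ j, ∑ i, v (i, j) = (l j).2) ∧
      ∀ e : Equiv.Perm σ, (∀ j, l (e j) = l j) →
        rename (fun p : Fin m × σ => (p.1, e p.2)) f = f := Iff.rfl

/-- Two finite families with the same multiset of values differ by a bijection. -/
lemma exists_equiv {α τ τ' : Type} [Fintype τ] [Fintype τ'] (g : τ → α) (g' : τ' → α)
    (h : Finset.univ.val.map g = Finset.univ.val.map g') :
    ∃ e : τ ≃ τ', ∀ x, g' (e x) = g x := by
  classical
  have hc : ∀ n, Nonempty ({x // g x = n} ≃ {x // g' x = n}) := by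
    intro n
    refine ⟨Fintype.equivOfCardEq ?_⟩
    rw [Fintype.card_subtype, Fintype.card_subtype]
    have h1 := congrArg (Multiset.count n) h
    rw [Multiset.count_map, Multiset.count_map] at h1
    have h2 : (Finset.univ.filter fun x => g x = n).card
        = Multiset.card (Multiset.filter (fun a => n = g a) Finset.univ.val) := by
      rw [Finset.card_def, Finset.filter_val]
      congr 2
      funext a
      exact propext eq_comm
    have h3 : (Finset.univ.filter fun x => g' x = n).card
        = Multiset.card (Multiset.filter (fun a => n = g' a) Finset.univ.val) := by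
      rw [Finset.card_def, Finset.filter_val]
      congr 2
      funext a
      exact propext eq_comm
    rw [h2, h3]
    exact h1
  let φ := fun n => Classical.choice (hc n)
  let e : τ ≃ τ' := (Equiv.sigmaFiberEquiv g).symm.trans
    ((Equiv.sigmaCongrRight φ).trans (Equiv.sigmaFiberEquiv g'))
  refine ⟨e, fun x => ?_⟩
  exact (φ (g x) ⟨x, rfl⟩).2

section emb

variable {m : ℕ} {σ τ : Type} [Fintype σ] [Fintype τ]

/-- **Transport.** `ι` is a bijection onto the set of columns of positive degree. -/
lemma rc_mem_PL {ι : τ → σ} (hι : Function.Injective ι) {l : σ → ℕ × ℕ}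
    (hd : ∀ j, 0 < (l j).2 ↔ j ∈ Set.range ι) {mu : Fin m → ℕ}
    {f : MvPolynomial (Fin m × τ) ℂ} :
    rc m ι f ∈ PL m σ l mu ↔ f ∈ PL m τ (fun j => l (ι j)) mu := by
  rw [mem_PL, mem_PL, rc_mem_HW hι]
  constructor
  · rintro ⟨h0, h1, h2⟩
    refine ⟨h0, ?_, ?_⟩
    · intro u hu j
      have hc : coeff (Finsupp.mapDomain (fun p : Fin m × τ => (p.1, ι p.2)) u) (rc m ι f)
          = coeff u f := coeff_rename_mapDomain _ (inj_pr hι) f u
      have h3 := h1 _ (by rw [hc]; exact hu) (ι j)
      rw [← h3]
      apply Finset.sum_congr rfl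
      intro i _
      exact (Finsupp.mapDomain_apply (inj_pr hι) u (i, j)).symm
    · intro e' he'
      let ie : τ ↪ σ := ⟨ι, hι⟩
      have h3 := h2 (e'.viaEmbedding ie) (by
        intro j
        by_cases hj : j ∈ Set.range ι
        · obtain ⟨b, rfl⟩ := hj
          have h4 : e'.viaEmbedding ie (ι b) = ι (e' b) := e'.viaEmbedding_apply ie b
          rw [h4]
          exact he' b
        · rw [e'.viaEmbedding_apply_of_notMem ie j hj])
      apply rc_inj (m := m) hι
      have h5 : rc m ι (rename (fun p : Fin m × τ => (p.1, e' p.2)) f)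
          = rename (fun p : Fin m × σ => (p.1, (e'.viaEmbedding ie) p.2)) (rc m ι f) := by
        rw [rc, rename_rename, rename_rename]
        congr 2
        funext p
        have h4 : e'.viaEmbedding ie (ι p.2) = ι (e' p.2) := e'.viaEmbedding_apply ie p.2
        simp only [Function.comp_apply, h4]
      rw [h5, h3]
  · rintro ⟨h0, h1, h2⟩
    refine ⟨h0, ?_, ?_⟩
    · intro v hv j
      obtain ⟨u, hu, h3, h4⟩ := coeff_rc hι hv
      by_cases hj : j ∈ Set.range ι
      · obtain ⟨b, rfl⟩ := hj
        rw [← h1 u hu b]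
        exact Finset.sum_congr rfl fun i _ => h3 i b
      · have h5 : (l j).2 = 0 := by
          have := (hd j).not.2 hj
          omega
        rw [h5]
        exact Finset.sum_eq_zero fun i _ => h4 i j hj
    · intro e he
      obtain ⟨e', he'⟩ := perm_restrict hι e (by
        intro x
        rw [← hd, ← hd, he])
      have h5 : rename (fun p : Fin m × σ => (p.1, e p.2)) (rc m ι f)
          = rc m ι (rename (fun p : Fin m × τ => (p.1, e' p.2)) f) := by
        rw [rc, rename_rename, rename_rename]
        congr 2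
        funext p
        simp only [Function.comp_apply, he']
      rw [h5, h2 e' (fun j => by rw [he', he])]

/-- **Transport of dimensions.** -/
theorem finrank_emb {ι : τ → σ} (hι : Function.Injective ι) {l : σ → ℕ × ℕ}
    (hd : ∀ j, 0 < (l j).2 ↔ j ∈ Set.range ι) (mu : Fin m → ℕ) :
    Module.finrank ℂ (PL m σ l mu) = Module.finrank ℂ (PL m τ (fun j => l (ι j)) mu) := by
  have h1 : PL m σ l mu = (PL m τ (fun j => l (ι j)) mu).map (rc m ι).toLinearMap := by
    apply le_antisymm
    · intro g hg
      obtain ⟨f, rfl⟩ := exists_rc hι (d := fun j => (l j).2) (fun j hj => (hd j).1 hj)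
        (mem_PL.1 hg).2.1
      exact ⟨f, (rc_mem_PL hι hd).1 hg, rfl⟩
    · rintro _ ⟨f, hf, rfl⟩
      exact (rc_mem_PL hι hd).2 hf
  rw [h1]
  exact (Submodule.equivMapOfInjective (rc m ι).toLinearMap (rc_inj hι) _).finrank_eq.symm

end emb

/-- **(T)** Transport. -/
theorem transL : TransL := by
  intro m σ _ l mu
  classical
  set k : Multiset (ℕ × ℕ) := (Finset.univ.val.map l).filter (fun p => 0 < p.2) with hk
  have h1 : (Finset.univ.val.map fun j : {x : σ // 0 < (l x).2} => l j.1) = k := by
    have h2 : (Finset.univ.filter fun x : σ => 0 < (l x).2).val.map l = k := by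
      rw [hk, Multiset.filter_map, Finset.filter_val]
      rfl
    rw [← h2]
    have h3 : (Finset.univ.val.map fun j : {x : σ // 0 < (l x).2} => (j : σ))
        = (Finset.univ.filter fun x : σ => 0 < (l x).2).val := by
      have h4 := Finset.subtype_map (s := (Finset.univ : Finset σ)) (fun x : σ => 0 < (l x).2)
      have h5 := congrArg Finset.val h4
      rw [Finset.map_val] at h5
      rw [← h5]
      congr 1
      ext x
      simp
    rw [← h3, Multiset.map_map]
    rfl
  have h4 : (Finset.univ.val.map fun j : Fin k.toList.length => k.toList.get j) = k := by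
    rw [Fin.univ_val_map]
    rw [List.ofFn_get, Multiset.coe_toList]
  obtain ⟨e, he⟩ := exists_equiv (fun j : Fin k.toList.length => k.toList.get j)
    (fun j : {x : σ // 0 < (l x).2} => l j.1) (h4.trans h1.symm)
  have h5 := finrank_emb (m := m) (ι := fun j => ((e j : {x : σ // 0 < (l x).2}) : σ))
    (fun a b hab => e.injective (Subtype.ext hab)) (l := l) (fun j => by
      constructor
      · intro hj
        exact ⟨e.symm ⟨j, hj⟩, by simp⟩
      · rintro ⟨b, rfl⟩
        exact (e b).2) mu
  rw [h5, cc]
  have h6 : (fun j => l ((e j : {x : σ // 0 < (l x).2}) : σ)) = fun j => k.toList.get j := by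
    funext j
    exact he j
  rw [h6]

/-- The labels of a family of columns without empty columns. -/
theorem transPos {m : ℕ} {σ : Type} [Fintype σ] (l : σ → ℕ × ℕ) (mu : Fin m → ℕ)
    (hd : ∀ j, 0 < (l j).2) :
    Module.finrank ℂ (PL m σ l mu) = cc m mu (Finset.univ.val.map l) := by
  rw [transL m σ l mu, Multiset.filter_eq_self.2]
  intro x hx
  obtain ⟨j, _, rfl⟩ := Multiset.mem_map.1 hx
  exact hd j

/-- The plain letters of a state do not matter. -/
theorem cc_filter (m : ℕ) (mu : Fin m → ℕ) (U : Multiset (ℕ × ℕ)) :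
    cc m mu U = cc m mu (U.filter fun p => 0 < p.2) := by
  conv_lhs => rw [cc, transL]
  congr 2
  rw [Fin.univ_val_map]
  rw [List.ofFn_get, Multiset.coe_toList]

/-- A plain letter does not matter. -/
theorem cc_plain (m : ℕ) (mu : Fin m → ℕ) (y : ℕ) (U : Multiset (ℕ × ℕ)) :
    cc m mu ((y, 0) ::ₘ U) = cc m mu U := by
  rw [cc_filter m mu ((y, 0) ::ₘ U), cc_filter m mu U, Multiset.filter_cons_of_neg]
  simp

/-- Only the degrees and the partition of the columns by labels matter. -/
theorem PL_congr {m : ℕ} {σ : Type} [Fintype σ] {l l' : σ → ℕ × ℕ} (mu : Fin m → ℕ)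
    (h2 : ∀ j, (l j).2 = (l' j).2) (h : ∀ i j, l' i = l' j → l i = l j) :
    PL m σ l mu ≤ PL m σ l' mu := by
  intro f hf
  obtain ⟨h0, h1, h3⟩ := mem_PL.1 hf
  exact mem_PL.2 ⟨h0, fun v hv j => by rw [h1 v hv j, h2 j],
    fun e he => h3 e fun j => h _ _ (he j)⟩

end Vale.Agent.P181.O2.H43
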